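import Mathlib

/-!
# Row 1, analytic input (helper774): Dirichlet series with bounded partial sums

For `f : ℕ → ℂ` with `‖∑_{k ≤ n} f k‖ ≤ Q` the function
`E f s = ∑ S(n+1) ((n+1)^{-s} - (n+2)^{-s})` is analytic on `Re s > 0`, equals `LSeries f s` for
`Re s > 1`, and satisfies polynomial bounds.
-/

set_option autoImplicit false

open Finset Complex

namespace Crest.Agent.R001.SW

/-- summatory function -/
noncomputable def Sm (f : ℕ → ℂ) (n : ℕ) : ℂ := ∑ k ∈ Icc 1 n, f k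

lemma Sm_zero (f : ℕ → ℂ) : Sm f 0 = 0 := by simp [Sm]

lemma Sm_succ (f : ℕ → ℂ) (n : ℕ) : Sm f (n + 1) = Sm f n + f (n + 1) := by
  unfold Sm
  rw [Finset.sum_Icc_succ_top (by omega)]

/-- difference `n^{-s} - (n+1)^{-s}` -/
noncomputable def dl (s : ℂ) (n : ℕ) : ℂ := ((n : ℕ) : ℂ) ^ (-s) - ((n + 1 : ℕ) : ℂ) ^ (-s)

lemma hasDerivAt_cpow_neg (s : ℂ) {x : ℝ} (hx : 0 < x) :
    HasDerivAt (fun y : ℝ => (y : ℂ) ^ (-s)) (-s * (x : ℂ) ^ (-s - 1)) x := by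
  have h : (x : ℂ) ∈ Complex.slitPlane := Complex.ofReal_mem_slitPlane.mpr hx
  have h1 := (hasDerivAt_id (x : ℂ)).cpow_const (c := -s) h
  have h2 := h1.comp_ofReal
  simpa using h2

lemma norm_cpow_real {x : ℝ} (hx : 0 < x) (s : ℂ) : ‖(x : ℂ) ^ s‖ = x ^ s.re :=
  Complex.norm_cpow_eq_rpow_re_of_pos hx s

lemma norm_cpow_sub_le (s : ℂ) (hs : -1 ≤ s.re) {x y : ℝ} (hx : 0 < x) (hxy : x ≤ y) :
    ‖(y : ℂ) ^ (-s) - (x : ℂ) ^ (-s)‖ ≤ ‖s‖ * x ^ (-s.re - 1) * (y - x) := by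
  have h1 : ∀ z ∈ Set.Icc x y, HasDerivWithinAt (fun y : ℝ => (y : ℂ) ^ (-s))
      (-s * (z : ℂ) ^ (-s - 1)) (Set.Icc x y) z := by
    intro z hz
    exact (hasDerivAt_cpow_neg s (lt_of_lt_of_le hx hz.1)).hasDerivWithinAt
  have h2 : ∀ z ∈ Set.Ico x y, ‖-s * (z : ℂ) ^ (-s - 1)‖ ≤ ‖s‖ * x ^ (-s.re - 1) := by
    intro z hz
    have hz0 : 0 < z := lt_of_lt_of_le hx hz.1
    rw [norm_mul, norm_neg, norm_cpow_real hz0]
    apply mul_le_mul_of_nonneg_left _ (norm_nonneg _)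
    have : (-s - 1).re = -s.re - 1 := by simp
    rw [this]
    exact Real.rpow_le_rpow_of_nonpos hx hz.1 (by linarith)
  exact norm_image_sub_le_of_norm_deriv_le_segment' h1 h2 y ⟨hxy, le_rfl⟩

lemma norm_dl_le (s : ℂ) (hs : -1 ≤ s.re) {n : ℕ} (hn : 1 ≤ n) :
    ‖dl s n‖ ≤ ‖s‖ * (n : ℝ) ^ (-s.re - 1) := by
  have hn0 : (0 : ℝ) < n := by exact_mod_cast hn
  have h := norm_cpow_sub_le s hs (x := (n : ℝ)) (y := (n + 1 : ℝ)) hn0 (by linarith)
  have e : (n + 1 : ℝ) - n = 1 := by ring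
  rw [e, mul_one] at h
  unfold dl
  rw [norm_sub_rev]
  push_cast at h ⊢
  exact h

/-- the series -/
noncomputable def E (f : ℕ → ℂ) (s : ℂ) : ℂ := ∑' n : ℕ, Sm f (n + 1) * dl s (n + 1)

lemma summable_rpow_aux {σ : ℝ} (hσ : 0 < σ) :
    Summable (fun n : ℕ => ((n + 1 : ℕ) : ℝ) ^ (-σ - 1)) := by
  have h : Summable (fun n : ℕ => (n : ℝ) ^ (-σ - 1)) :=
    Real.summable_nat_rpow.mpr (by linarith)
  exact (summable_nat_add_iff 1).mpr h

/-- one telescoping step -/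
lemma rpow_step {σ : ℝ} (hσ : 0 < σ) {n : ℕ} (hn : 1 ≤ n) :
    ((n + 1 : ℕ) : ℝ) ^ (-σ - 1) ≤ ((n : ℝ) ^ (-σ) - ((n + 1 : ℕ) : ℝ) ^ (-σ)) / σ := by
  have hn0 : (0 : ℝ) < n := by exact_mod_cast hn
  have hn1 : (0 : ℝ) < ((n + 1 : ℕ) : ℝ) := by positivity
  rw [le_div_iff₀ hσ]
  set y : ℝ := ((n + 1 : ℕ) : ℝ) with hy
  have hyn : (n : ℝ) = y * (1 - 1 / y) := by
    rw [hy]; push_cast; field_simp; ring
  have h1 : 0 < 1 - 1 / y := by
    have : 0 < y * (1 - 1 / y) := by rw [← hyn]; exact hn0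
    exact (mul_pos_iff_of_pos_left hn1).mp this
  have h2 : (n : ℝ) ^ (-σ) = y ^ (-σ) * (1 - 1 / y) ^ (-σ) := by
    rw [hyn, Real.mul_rpow hn1.le h1.le]
  have h3 : 1 + σ / y ≤ (1 - 1 / y) ^ (-σ) := by
    rw [Real.rpow_def_of_pos h1]
    have h4 : Real.log (1 - 1 / y) ≤ -(1 / y) := by
      have := Real.log_le_sub_one_of_pos h1
      linarith
    have h5 : σ / y ≤ Real.log (1 - 1 / y) * -σ := by
      have : σ / y = (1 / y) * σ := by ring
      rw [this]; nlinarith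
    calc 1 + σ / y ≤ 1 + Real.log (1 - 1 / y) * -σ := by linarith
      _ ≤ Real.exp (Real.log (1 - 1 / y) * -σ) := by
        have := Real.add_one_le_exp (Real.log (1 - 1 / y) * -σ)
        linarith
  have h6 : y ^ (-σ - 1) = y ^ (-σ) / y := by
    rw [Real.rpow_sub_one hn1.ne']
  rw [h6, h2]
  have h7 : 0 < y ^ (-σ) := Real.rpow_pos_of_pos hn1 _
  have : y ^ (-σ) / y * σ = y ^ (-σ) * (1 + σ / y) - y ^ (-σ) := by ring
  rw [this]
  have := mul_le_mul_of_nonneg_left h3 h7.le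
  linarith

lemma sum_tail_le {σ : ℝ} (hσ : 0 < σ) {N : ℕ} (hN : 1 ≤ N) (M : ℕ) :
    ∑ n ∈ range M, ((n + N + 1 : ℕ) : ℝ) ^ (-σ - 1) ≤ (N : ℝ) ^ (-σ) / σ := by
  have key : ∀ M : ℕ, ∑ n ∈ range M, ((n + N + 1 : ℕ) : ℝ) ^ (-σ - 1) ≤
      ((N : ℝ) ^ (-σ) - ((M + N : ℕ) : ℝ) ^ (-σ)) / σ := by
    intro M
    induction M with
    | zero => simp
    | succ M ih =>
      rw [sum_range_succ]
      have h := rpow_step hσ (n := M + N) (by omega)
      have e : M + 1 + N = M + N + 1 := by ring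
      rw [e]
      have : ((N : ℝ) ^ (-σ) - ((M + N + 1 : ℕ) : ℝ) ^ (-σ)) / σ =
        ((N : ℝ) ^ (-σ) - ((M + N : ℕ) : ℝ) ^ (-σ)) / σ +
        (((M + N : ℕ) : ℝ) ^ (-σ) - ((M + N + 1 : ℕ) : ℝ) ^ (-σ)) / σ := by ring
      rw [this]
      exact add_le_add ih h
  refine (key M).trans ?_
  apply div_le_div_of_nonneg_right _ hσ.le
  have : 0 ≤ ((M + N : ℕ) : ℝ) ^ (-σ) := by positivity
  linarith

lemma tsum_tail_le {σ : ℝ} (hσ : 0 < σ) {N : ℕ} (hN : 1 ≤ N) :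
    ∑' n : ℕ, ((n + N + 1 : ℕ) : ℝ) ^ (-σ - 1) ≤ (N : ℝ) ^ (-σ) / σ :=
  Real.tsum_le_of_sum_range_le (fun _ => by positivity) (sum_tail_le hσ hN)

lemma tsum_all_le {σ : ℝ} (hσ : 0 < σ) :
    ∑' n : ℕ, ((n + 1 : ℕ) : ℝ) ^ (-σ - 1) ≤ 1 + 1 / σ := by
  rw [(summable_rpow_aux hσ).tsum_eq_zero_add]
  have h := tsum_tail_le hσ (N := 1) le_rfl
  have e : ∀ n : ℕ, ((n + 1 + 1 : ℕ) : ℝ) ^ (-σ - 1) = ((n + 1 + 1 : ℕ) : ℝ) ^ (-σ - 1) := fun _ => rfl
  simp only [Nat.cast_one, Real.one_rpow] at h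
  have h0 : ((0 + 1 : ℕ) : ℝ) ^ (-σ - 1) = 1 := by simp
  rw [h0]
  exact add_le_add le_rfl h

/-- initial sums -/
lemma sum_Icc_rpow_le {η : ℝ} (hη : 0 < η) (hη1 : η ≤ 1) (N : ℕ) :
    ∑ n ∈ Icc 1 N, (n : ℝ) ^ (η - 1) ≤ (N : ℝ) ^ η / η := by
  induction N with
  | zero => simp [Real.zero_rpow hη.ne']
  | succ N ih =>
    rw [Finset.sum_Icc_succ_top (by omega)]
    have hy : (0 : ℝ) < ((N + 1 : ℕ) : ℝ) := by positivity
    set y : ℝ := ((N + 1 : ℕ) : ℝ) with hydef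
    have hyN : (N : ℝ) = y * (1 + -(1 / y)) := by
      rw [hydef]; push_cast; field_simp; ring
    have hy1 : 1 ≤ y := by rw [hydef]; push_cast; linarith [Nat.cast_nonneg (α := ℝ) N]
    have h1y : 1 / y ≤ 1 := by rw [div_le_one hy]; exact hy1
    have h1 : (N : ℝ) ^ η ≤ y ^ η * (1 + η * -(1 / y)) := by
      rw [hyN, Real.mul_rpow hy.le (by linarith)]
      exact mul_le_mul_of_nonneg_left
        (rpow_one_add_le_one_add_mul_self (by linarith) hη.le hη1) (by positivity)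
    have h2 : y ^ (η - 1) = y ^ η / y := Real.rpow_sub_one hy.ne' _
    rw [h2]
    calc ∑ n ∈ Icc 1 N, (n : ℝ) ^ (η - 1) + y ^ η / y ≤ (N : ℝ) ^ η / η + y ^ η / y := by linarith
      _ ≤ y ^ η * (1 + η * -(1 / y)) / η + y ^ η / y := by
        have := div_le_div_of_nonneg_right h1 hη.le
        linarith
      _ = y ^ η / η := by field_simp; ring

section
variable {f : ℕ → ℂ} {Q : ℝ} (hQ : ∀ n, ‖Sm f n‖ ≤ Q)

/-- partial sums -/
lemma sum_range_E (f : ℕ → ℂ) (s : ℂ) (N : ℕ) :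
    ∑ n ∈ range N, Sm f (n + 1) * dl s (n + 1) =
      ∑ n ∈ Icc 1 N, f n * (n : ℂ) ^ (-s) - Sm f N * ((N + 1 : ℕ) : ℂ) ^ (-s) := by
  induction N with
  | zero => simp [Sm_zero]
  | succ N ih =>
    rw [sum_range_succ, ih, Finset.sum_Icc_succ_top (by omega), Sm_succ]
    unfold dl
    ring

include hQ

lemma Q_nonneg : 0 ≤ Q := le_trans (norm_nonneg _) (hQ 0)

lemma norm_term_le (s : ℂ) (hs : -1 ≤ s.re) (n : ℕ) :
    ‖Sm f (n + 1) * dl s (n + 1)‖ ≤ Q * ‖s‖ * ((n + 1 : ℕ) : ℝ) ^ (-s.re - 1) := by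
  rw [norm_mul, mul_assoc]
  exact mul_le_mul (hQ _) (norm_dl_le s hs (by omega)) (norm_nonneg _) (Q_nonneg hQ)

lemma summable_E {s : ℂ} (hs : 0 < s.re) :
    Summable (fun n : ℕ => Sm f (n + 1) * dl s (n + 1)) := by
  refine Summable.of_norm_bounded (g := fun n : ℕ => Q * ‖s‖ * ((n + 1 : ℕ) : ℝ) ^ (-s.re - 1))
    ((summable_rpow_aux hs).mul_left _) (fun n => norm_term_le hQ s (by linarith) n)


/-- truncated bound -/
lemma norm_E_le_trunc {s : ℂ} (hs : 0 < s.re) {N : ℕ} (hN : 1 ≤ N) :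
    ‖E f s‖ ≤ ∑ n ∈ Icc 1 N, ‖f n‖ * (n : ℝ) ^ (-s.re) + Q * (N : ℝ) ^ (-s.re) +
      Q * ‖s‖ * ((N : ℝ) ^ (-s.re) / s.re) := by
  have hQ0 := Q_nonneg hQ
  have hN0 : (0 : ℝ) < N := by exact_mod_cast hN
  have h0 : E f s = ∑ n ∈ range N, Sm f (n + 1) * dl s (n + 1) +
      ∑' n : ℕ, Sm f (n + N + 1) * dl s (n + N + 1) := by
    unfold E
    rw [← Summable.sum_add_tsum_nat_add N (summable_E hQ hs)]
  have ht : ‖∑' n : ℕ, Sm f (n + N + 1) * dl s (n + N + 1)‖ ≤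
      Q * ‖s‖ * ((N : ℝ) ^ (-s.re) / s.re) := by
    have hsum : Summable (fun n : ℕ => Q * ‖s‖ * ((n + N + 1 : ℕ) : ℝ) ^ (-s.re - 1)) := by
      apply Summable.mul_left
      exact (summable_nat_add_iff N).mpr (summable_rpow_aux hs)
    have hle : ∀ n : ℕ, ‖Sm f (n + N + 1) * dl s (n + N + 1)‖ ≤
        Q * ‖s‖ * ((n + N + 1 : ℕ) : ℝ) ^ (-s.re - 1) := fun n =>
      norm_term_le hQ s (by linarith) (n + N)
    have hs' : Summable (fun n : ℕ => ‖Sm f (n + N + 1) * dl s (n + N + 1)‖) :=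
      Summable.of_nonneg_of_le (fun _ => norm_nonneg _) hle hsum
    refine (norm_tsum_le_tsum_norm hs').trans ((Summable.tsum_le_tsum hle hs' hsum).trans ?_)
    rw [tsum_mul_left]
    exact mul_le_mul_of_nonneg_left (tsum_tail_le hs hN) (by positivity)
  rw [h0, sum_range_E]
  refine (norm_add_le _ _).trans (add_le_add ?_ ht)
  refine (norm_sub_le _ _).trans (add_le_add ?_ ?_)
  · refine (norm_sum_le _ _).trans (Finset.sum_le_sum fun n hn => ?_)
    have hn1 := (mem_Icc.mp hn).1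
    rw [norm_mul, Complex.norm_natCast_cpow_of_pos hn1, Complex.neg_re]
  · rw [norm_mul, Complex.norm_natCast_cpow_of_pos (Nat.succ_pos N), Complex.neg_re]
    refine mul_le_mul (hQ N) ?_ (by positivity) hQ0
    apply Real.rpow_le_rpow_of_nonpos hN0 _ (by linarith)
    push_cast; linarith

lemma differentiableOn_E : DifferentiableOn ℂ (E f) {s | 0 < s.re} := by
  -- locally uniform bound on `δ < re s`, `‖s‖ < R`
  have hopen : ∀ (δ R : ℝ), IsOpen {s : ℂ | δ < s.re ∧ ‖s‖ < R} := fun δ R =>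
    (isOpen_lt continuous_const Complex.continuous_re).inter
      (isOpen_lt continuous_norm continuous_const)
  intro s hs
  have hs0 : 0 < s.re := hs
  set δ := s.re / 2 with hδ
  have hδ0 : 0 < δ := by positivity
  set R := ‖s‖ + 1 with hR
  have hQ0 := Q_nonneg hQ
  have hd : DifferentiableOn ℂ (E f) {s : ℂ | δ < s.re ∧ ‖s‖ < R} := by
    unfold E
    refine Complex.differentiableOn_tsum_of_summable_norm
      (u := fun n : ℕ => Q * R * ((n + 1 : ℕ) : ℝ) ^ (-δ - 1))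
      ((summable_rpow_aux hδ0).mul_left _) ?_ (hopen δ R) ?_
    · intro n
      apply DifferentiableOn.const_mul
      unfold dl
      intro w _
      apply DifferentiableAt.differentiableWithinAt
      have h1 : ((n + 1 : ℕ) : ℂ) ≠ 0 := by exact_mod_cast Nat.succ_ne_zero n
      have h2 : ((n + 1 + 1 : ℕ) : ℂ) ≠ 0 := by exact_mod_cast Nat.succ_ne_zero (n + 1)
      apply DifferentiableAt.sub
      · exact (differentiableAt_id.neg).const_cpow (Or.inl h1)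
      · exact (differentiableAt_id.neg).const_cpow (Or.inl h2)
    · intro n w hw
      refine (norm_term_le hQ w (by linarith [hw.1]) n).trans ?_
      apply mul_le_mul
      · exact mul_le_mul_of_nonneg_left hw.2.le hQ0
      · apply Real.rpow_le_rpow_of_exponent_le
        · have : (1 : ℕ) ≤ n + 1 := by omega
          exact_mod_cast this
        · linarith [hw.1]
      · positivity
      · positivity
  have hmem : s ∈ {s : ℂ | δ < s.re ∧ ‖s‖ < R} := by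
    constructor
    · rw [hδ]; linarith
    · rw [hR]; linarith
  exact ((hd s hmem).differentiableAt ((hopen δ R).mem_nhds hmem)).differentiableWithinAt

/-- `E f = LSeries f` for `Re s > 1` -/
lemma E_eq_LSeries {s : ℂ} (hs : 0 < s.re) (hL : LSeriesSummable f s) :
    E f s = LSeries f s := by
  have h1 := (summable_E hQ hs).hasSum.tendsto_sum_nat
  have hE : (∑' n : ℕ, Sm f (n + 1) * dl s (n + 1)) = E f s := rfl
  rw [hE] at h1
  simp_rw [sum_range_E] at h1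
  have h2 : Filter.Tendsto (fun N : ℕ => ∑ n ∈ Icc 1 N, f n * (n : ℂ) ^ (-s)) Filter.atTop
      (nhds (LSeries f s)) := by
    have h3 := (hL.hasSum.tendsto_sum_nat).comp (Filter.tendsto_add_atTop_nat 1)
    refine h3.congr fun N => ?_
    simp only [Function.comp]
    rw [Finset.range_eq_Ico, Finset.sum_eq_sum_Ico_succ_bot (by omega), LSeries.term_zero, zero_add]
    refine Finset.sum_congr ?_ fun n hn => ?_
    · ext n; simp only [mem_Ico, mem_Icc]; omega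
    · have : n ≠ 0 := by
        have := (mem_Ico.mp hn).1
        omega
      rw [LSeries.term_of_ne_zero this, Complex.cpow_neg, div_eq_mul_inv]
  have h4 : Filter.Tendsto (fun N : ℕ => Sm f N * ((N + 1 : ℕ) : ℂ) ^ (-s)) Filter.atTop
      (nhds 0) := by
    rw [tendsto_zero_iff_norm_tendsto_zero]
    have h5 : Filter.Tendsto (fun N : ℕ => Q * ((N + 1 : ℕ) : ℝ) ^ (-s.re)) Filter.atTop
        (nhds 0) := by
      have h6 : Filter.Tendsto (fun N : ℕ => ((N + 1 : ℕ) : ℝ) ^ (-s.re)) Filter.atTop (nhds 0) :=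
        (tendsto_rpow_neg_atTop hs).comp
          (tendsto_natCast_atTop_atTop.comp (Filter.tendsto_add_atTop_nat 1))
      simpa using h6.const_mul Q
    refine squeeze_zero (fun _ => norm_nonneg _) (fun N => ?_) h5
    rw [norm_mul, Complex.norm_natCast_cpow_of_pos (Nat.succ_pos N), Complex.neg_re]
    exact mul_le_mul_of_nonneg_right (hQ N) (by positivity)
  have h7 := h2.sub h4
  rw [sub_zero] at h7
  exact tendsto_nhds_unique h1 h7

end

end Crest.Agent.R001.SW
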